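import Crest.Agent.H6.RI.Cake

/-! Task `T_orth`. -/

set_option autoImplicit false
set_option linter.deprecated false

noncomputable section

namespace Crest.Agent.H6.RI

open MeasureTheory Set Filter Crest.Agent.H2.RP Crest.Agent.H9.RI
open scoped Classical

theorem mv_add (θ : ℝ) (x : Cir) (a b : ℤ) : mv θ (mv θ x a) b = mv θ x (a + b) := by
  rw [mv, mv, mv, add_assoc, ← AddCircle.coe_add]; push_cast; rw [add_mul]

theorem mv_zero (θ : ℝ) (x : Cir) : mv θ x 0 = x := by simp [mv]

theorem int_mv (θ : ℝ) (k : ℤ) (g : Cir → ℝ) : ∫ x, g (mv θ x k) ∂mu = ∫ x, g x ∂mu :=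
  integral_add_right_eq_self g _

theorem RB.mv {v : Cir → ℝ} {R : ℝ} (hv : RB v R) (θ : ℝ) (k : ℤ) :
    RB (fun x => v (mv θ x k)) R :=
  ⟨hv.1.comp (measurable_add_const _), fun _ => hv.2 _⟩

theorem RB.mul {v w : Cir → ℝ} {R Q : ℝ} (hv : RB v R) (hw : RB w Q) :
    RB (fun x => v x * w x) (R * Q) :=
  ⟨hv.1.mul hw.1, fun x => by
    rw [abs_mul]
    exact mul_le_mul (hv.2 x) (hw.2 x) (abs_nonneg _) ((abs_nonneg _).trans (hv.2 x))⟩

theorem RB_ind {S : Set Cir} (hS : MeasurableSet S) : RB (S.indicator fun _ => (1 : ℝ)) 1 :=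
  ⟨measurable_const.indicator hS, fun x => by by_cases h : x ∈ S <;> simp [h]⟩

theorem int_ind {S : Set Cir} (hS : MeasurableSet S) :
    ∫ x, S.indicator (fun _ => (1 : ℝ)) x ∂mu = mu.real S := by
  rw [integral_indicator hS]; simp

theorem RB_zt {V : Set Cir} (hV : MeasurableSet V) {η : ℝ} (h0 : 0 ≤ η) (h1 : η ≤ 1) :
    RB (zt V η) 1 :=
  ⟨(measurable_const.indicator hV).sub_const η, fun x => by
    by_cases h : x ∈ V <;> simp [zt, h, abs_le] <;> constructor <;> linarith⟩

theorem zt_step {θ : ℝ} {V D : Set Cir} (η : ℝ)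
    (hc : ∀ x, mv θ x 1 ∉ D → (x ∈ V ↔ mv θ x 1 ∈ V)) (x : Cir) (n : ℕ) :
    |zt V η (mv θ x n) - zt V η x| ≤
      ∑ i ∈ Finset.range n, D.indicator (fun _ => (1 : ℝ)) (mv θ x (i + 1)) := by
  induction n with
  | zero => simp [mv_zero]
  | succ n ih =>
    rw [Finset.sum_range_succ]
    have h1 : |zt V η (mv θ x (n + 1)) - zt V η (mv θ x n)| ≤
        D.indicator (fun _ => (1 : ℝ)) (mv θ x (n + 1)) := by
      by_cases hD : mv θ x (n + 1) ∈ D
      · rw [zt, zt, sub_sub_sub_cancel_right]
        by_cases a : mv θ x (n + 1) ∈ V <;> by_cases b : mv θ x n ∈ V <;> simp [a, b, hD]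
      · have := hc (mv θ x n) (by rwa [mv_add])
        rw [mv_add] at this
        by_cases b : mv θ x n ∈ V
        · simp [zt, b, this.1 b, hD]
        · simp [zt, b, mt this.2 b, hD]
    have := abs_sub_le (zt V η (mv θ x (n + 1))) (zt V η (mv θ x n)) (zt V η x)
    push_cast
    linarith

theorem t_orth : T_orth := by
  intro θ V V' D' η η' δ N hV hV' hD a0 a1 b0 b1 hδ ⟨K, n, Y, hK, hn, hY, hYδ, hav⟩ hc
  have z := RB_zt hV a0 a1
  have z' := RB_zt hV' b0 b1
  set I := ∫ x, zt V η x * zt V' η' x ∂mu with hI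
  have hk : ∀ k, |I - ∫ x, zt V η (mv θ x (n k)) * zt V' η' x ∂mu| ≤ N * mu.real D' := fun k => by
    rw [hI, ← int_mv θ (n k), ← integral_sub (RB.int (RB.mv (RB.mul z z') θ _))
      (RB.int (RB.mul (RB.mv z θ _) z'))]
    have hi : ∀ i : ℕ, Integrable (fun x => D'.indicator (fun _ => (1 : ℝ)) (mv θ x (i + 1))) mu :=
      fun i => RB.int (RB.mv (RB_ind hD) θ _)
    rw [← Real.norm_eq_abs]
    refine (norm_integral_le_of_norm_le (integrable_finset_sum (Finset.range (n k)) fun i _ => hi i)
      (Eventually.of_forall fun x => ?_)).trans ?_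
    · rw [← mul_sub, Real.norm_eq_abs, abs_mul]
      exact (mul_le_of_le_one_left (abs_nonneg _) (z.2 _)).trans (zt_step η' hc x (n k))
    · rw [integral_finset_sum _ fun i _ => hi i]
      simp only [int_mv θ _ (D'.indicator fun _ => (1 : ℝ)), int_ind hD, Finset.sum_const,
        Finset.card_range, nsmul_eq_mul]
      exact mul_le_mul_of_nonneg_right (by exact_mod_cast hn k) measureReal_nonneg
  have hK' : (0 : ℝ) < K := by exact_mod_cast hK
  have hG : |∑ k, ∫ x, zt V η (mv θ x (n k)) * zt V' η' x ∂mu| ≤ K * (2 * δ) := by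
    rw [← integral_finset_sum _ fun k _ => RB.int (RB.mul (RB.mv z θ _) z')]
    have hi : Integrable (fun x => K * (δ + Y.indicator (fun _ => (1 : ℝ)) x)) mu :=
      ((integrable_const δ).add (RB.int (RB_ind hY))).const_mul _
    rw [← Real.norm_eq_abs]
    refine (norm_integral_le_of_norm_le hi (Eventually.of_forall fun x => ?_)).trans ?_
    · rw [← Finset.sum_mul, Real.norm_eq_abs, abs_mul]
      refine (mul_le_of_le_one_right (abs_nonneg _) (z'.2 _)).trans ?_
      by_cases hx : x ∈ Y
      · refine (Finset.abs_sum_le_sum_abs _ _).trans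
          ((Finset.sum_le_sum fun k _ => z.2 _).trans ?_)
        simp only [Finset.sum_const, Finset.card_univ, Fintype.card_fin, nsmul_eq_mul,
          indicator_of_mem hx]
        nlinarith
      · have := hav x hx
        rw [Finset.card_filter] at this
        push_cast at this
        simp only [zt, Finset.sum_sub_distrib, Finset.sum_const, Finset.card_univ,
          Fintype.card_fin, nsmul_eq_mul, Set.indicator, if_neg hx, add_zero]
        rw [mul_comm (K : ℝ) η, mul_comm (K : ℝ) δ]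
        exact this
    · rw [integral_const_mul, integral_add (integrable_const δ) (RB.int (RB_ind hY)), int_ind hY]
      simp only [integral_const, probReal_univ, smul_eq_mul, one_mul]
      exact mul_le_mul_of_nonneg_left (by linarith) hK'.le
  have h2 : |∑ k : Fin K, (I - ∫ x, zt V η (mv θ x (n k)) * zt V' η' x ∂mu)| ≤
      K * (N * mu.real D') := by
    refine (Finset.abs_sum_le_sum_abs _ _).trans ((Finset.sum_le_sum fun k _ => hk k).trans ?_)
    simp
  rw [Finset.sum_sub_distrib] at h2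
  simp only [Finset.sum_const, Finset.card_univ, Fintype.card_fin, nsmul_eq_mul] at h2
  have h3 : K * |I| ≤ K * (2 * δ + N * mu.real D') := by
    have := abs_add_le (K * I - ∑ k, ∫ x, zt V η (mv θ x (n k)) * zt V' η' x ∂mu)
      (∑ k, ∫ x, zt V η (mv θ x (n k)) * zt V' η' x ∂mu)
    rw [sub_add_cancel, abs_mul, abs_of_pos hK'] at this
    linarith
  exact le_of_mul_le_mul_left h3 hK'

end Crest.Agent.H6.RI
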